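import Vale.Agent.P146.H357.Law

/-!
# P146: at low temperature most configurations have a stretched-exponentially small Gibbs mass of
configurations with a small overlap with them; the form with a free exponent of the moment law
-/

open MeasureTheory ProbabilityTheory Set Filter Topology

namespace Vale.Agent.P146.H827

open Vale.Agent.P157.Lv Vale.Agent.P146.H425 Vale.Agent.P146.H605 Vale.Agent.P146.H605.Gauge
open Vale.Agent.P146.H357

variable {n : ℕ} {β : ℝ}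

/-- the bad mass at the scale `x = 2 n ^ (-d)`, overlap threshold `n ^ (-e)` -/
theorem bad_pow (hn : 1 ≤ n) (hβ : 0 < β) {Λ c a b d e : ℝ} (hΛ : 0 < Λ)
    (hd1 : 2 * (n : ℝ) ^ (-d) ≤ 1) (hm : ∀ y : ℝ, (n : ℝ) ^ (-d) ≤ y → y ≤ 4 * (n : ℝ) ^ (-d) →
      |Real.log (∫ g, Real.exp (y * (freeEnergy n β g - c)) ∂(disorder n)) -
        Λ * n * y ^ 6| ≤ Λ / 100 * n * y ^ 6)
    (h4 : 1 / Λ < (n : ℝ) ^ (1 - 5 * d - b)) (h6 : β ^ 2 / Λ ≤ (n : ℝ) ^ (2 * e - 5 * d))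
    (h7 : 2 ≤ (n : ℝ) ^ (b - a)) (h8 : 2 ≤ (n : ℝ) ^ b)
    (h9 : 1 / Λ ≤ (n : ℝ) ^ (1 - 7 * d)) :
    ∫ g, ∑ σ : Fin n → ℤˣ, gibbs n β g σ *
      (if Real.exp (-((n : ℝ) ^ a)) < p2 n β ((n : ℝ) ^ (-e)) g σ then (1 : ℝ) else 0)
        ∂(disorder n) ≤ 300 * (n : ℝ) ^ (-(d - b)) := by
  have hn1 : (1 : ℝ) ≤ n := by exact_mod_cast hn
  have hn0 : (0 : ℝ) < n := by linarith
  obtain ⟨x, hx⟩ : ∃ x, x = 2 * (n : ℝ) ^ (-d) := ⟨_, rfl⟩
  have hnd : 0 < (n : ℝ) ^ (-d) := by positivity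
  have hx0 : 0 < x := by rw [hx]; positivity
  have hx5' : x ^ 5 = 32 * (n : ℝ) ^ (-(5 * d)) := by
    rw [hx, mul_pow, rpow_pow_neg hn0]
    norm_num
  have hx6' : x ^ 6 = 64 * (n : ℝ) ^ (-(6 * d)) := by
    rw [hx, mul_pow, rpow_pow_neg hn0]
    norm_num
  have hx5 : n * x ^ 5 = 32 * (n : ℝ) ^ (1 - 5 * d) := by
    rw [hx5', rpow_split hn0 (show 1 - 5 * d = 1 + -(5 * d) by ring), Real.rpow_one]
    ring
  have hx6 : n * x ^ 6 = 64 * (n : ℝ) ^ (1 - 6 * d) := by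
    rw [hx6', rpow_split hn0 (show 1 - 6 * d = 1 + -(6 * d) by ring), Real.rpow_one]
    ring
  have hθ1 : 0 < (n : ℝ) ^ b := by positivity
  have hθ2 : (n : ℝ) ^ b < Λ * n * x ^ 5 := by
    rw [mul_assoc, hx5, rpow_split hn0 (show 1 - 5 * d = (1 - 5 * d - b) + b by ring)]
    have h10 : 1 < Λ * (n : ℝ) ^ (1 - 5 * d - b) := by
      rw [div_lt_iff₀ hΛ] at h4
      linarith
    have h11 := mul_lt_mul_of_pos_right h10 hθ1
    rw [one_mul] at h11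
    have h12 : 0 < Λ * (n : ℝ) ^ (1 - 5 * d - b) * (n : ℝ) ^ b := hθ1.trans h11
    linarith
  have hmain := bad_scale (n := n) (β := β) (Λ := Λ) (c := c) (x := x) hn hβ hΛ hx0
    (by rw [hx]; exact hd1)
    (fun y hy1 hy2 => hm y (by rw [hx] at hy1; linarith) (by rw [hx] at hy2; linarith))
    hθ1 hθ2
  have hε : (n : ℝ) ^ (-e) ≤ √(Λ * x ^ 5) / β := by
    rw [le_div_iff₀ hβ]
    refine Real.le_sqrt_of_sq_le ?_
    rw [mul_pow]
    have e2 : ((n : ℝ) ^ (-e)) ^ 2 = (n : ℝ) ^ (-(2 * e)) := by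
      rw [← Real.rpow_natCast, ← Real.rpow_mul hn0.le]
      congr 1
      push_cast
      ring
    rw [e2, hx5', rpow_split hn0 (show -(5 * d) = (2 * e - 5 * d) + -(2 * e) by ring)]
    have h11 : β ^ 2 ≤ Λ * (n : ℝ) ^ (2 * e - 5 * d) := by
      rw [div_le_iff₀ hΛ] at h6
      linarith
    have h12 : 0 < (n : ℝ) ^ (-(2 * e)) := by positivity
    have h13 : 0 < Λ * (n : ℝ) ^ (2 * e - 5 * d) * (n : ℝ) ^ (-(2 * e)) := by positivity
    have h14 := mul_le_mul_of_nonneg_right h11 h12.le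
    linarith
  have hexp : Real.exp ((n : ℝ) ^ a) ≤ Real.exp ((n : ℝ) ^ b) - 1 := by
    have e5 : 2 * (n : ℝ) ^ a ≤ (n : ℝ) ^ b := by
      rw [rpow_split hn0 (show b = (b - a) + a by ring)]
      exact mul_le_mul_of_nonneg_right (by simpa using h7) (by positivity)
    have e7 : (n : ℝ) ^ a ≤ (n : ℝ) ^ b - 1 := by linarith
    have e8 : Real.exp ((n : ℝ) ^ a) ≤ Real.exp ((n : ℝ) ^ b - 1) := Real.exp_le_exp.2 e7
    have e9 : Real.exp ((n : ℝ) ^ b) = Real.exp ((n : ℝ) ^ b - 1) * Real.exp 1 := by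
      rw [← Real.exp_add, sub_add_cancel]
    have e10 : 1 ≤ Real.exp ((n : ℝ) ^ b - 1) := Real.one_le_exp (by linarith)
    have e11 : 2 ≤ Real.exp 1 := by
      have := Real.add_one_le_exp (1 : ℝ)
      linarith
    rw [e9]
    have e12 := mul_le_mul_of_nonneg_left e11 (zero_le_one.trans e10)
    linarith
  refine (H357.int_mono hε hexp).trans (hmain.trans ?_)
  have h16 : 4 / (Λ * n * x ^ 6) ≤ x := by
    rw [mul_assoc, hx6, div_le_iff₀ (by positivity), hx]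
    have e12 : 2 * (n : ℝ) ^ (-d) * (Λ * (64 * (n : ℝ) ^ (1 - 6 * d))) =
        128 * (Λ * (n : ℝ) ^ (1 - 7 * d)) := by
      rw [rpow_split hn0 (show 1 - 7 * d = -d + (1 - 6 * d) by ring)]
      ring
    rw [e12]
    rw [div_le_iff₀ hΛ] at h9
    linarith
  have h17 : (n : ℝ) ^ b * (4 / (Λ * n * x ^ 6) + 130 * x) ≤ (n : ℝ) ^ b * (150 * x) :=
    mul_le_mul_of_nonneg_left (by linarith) hθ1.le
  refine h17.trans (le_of_eq ?_)
  rw [hx, rpow_split hn0 (show -(d - b) = b + -d by ring)]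
  ring

/-- the sharp moment law for all exponents below `θ` -/
def Mom (β θ : ℝ) : Prop := ∃ Λ p : ℝ, 0 < Λ ∧
  ∀ ε : ℝ, 0 < ε → ∀ a : ℝ, a < θ → ∃ δ : ℝ, 0 < δ ∧ ∀ᶠ n : ℕ in atTop,
    ∀ x : ℝ, (n : ℝ) ^ (-a) ≤ x → x ≤ δ →
      |Real.log (∫ g, Real.exp (x * (freeEnergy n β g - n * p)) ∂(disorder n)) -
        Λ * n * x ^ 6| ≤ ε * n * x ^ 6

/-- **The bad mass from the moment law**: if the sharp moment law holds for all exponents below
`θ ≤ 1 / 7`, then for `0 ≤ a`, `0 < c`, `a + c < θ`, `5 (a + c) < 2 e` the mean Gibbs mass of the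
configurations `σ` for which the Gibbs mass of `|R(σ,·)| ≤ n ^ (-e)` is larger than
`exp (-n ^ a)` is at most `300 n ^ (-c)`. -/
theorem law (hβ0 : 0 < β) {θ : ℝ} (hθ : θ ≤ 1 / 7) (hM : Mom β θ) {a c e : ℝ} (ha : 0 ≤ a)
    (hc : 0 < c) (hac : a + c < θ) (he : 5 * (a + c) < 2 * e) :
    ∀ᶠ n : ℕ in atTop, ∫ g, ∑ σ : Fin n → ℤˣ, gibbs n β g σ *
      (if Real.exp (-((n : ℝ) ^ a)) < p2 n β ((n : ℝ) ^ (-e)) g σ then (1 : ℝ) else 0)
        ∂(disorder n) ≤ 300 * (n : ℝ) ^ (-c) := by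
  obtain ⟨Λ, p, hΛ, hm⟩ := hM
  -- the exponents `a < b < d = b + c < θ`
  obtain ⟨t, ht0, ht1, ht2⟩ : ∃ t : ℝ, 0 < t ∧ a + c + t < θ ∧ 5 * (a + c + t) < 2 * e := by
    refine ⟨min ((θ - (a + c)) / 2) ((2 * e - 5 * (a + c)) / 10), ?_, ?_, ?_⟩
    · exact lt_min (by linarith) (by linarith)
    · have := min_le_left ((θ - (a + c)) / 2) ((2 * e - 5 * (a + c)) / 10)
      linarith
    · have := min_le_right ((θ - (a + c)) / 2) ((2 * e - 5 * (a + c)) / 10)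
      linarith
  obtain ⟨b, hbd⟩ : ∃ b, b = a + t := ⟨_, rfl⟩
  obtain ⟨d, hdd⟩ : ∃ d, d = a + c + t := ⟨_, rfl⟩
  have hab : a < b := by rw [hbd]; linarith
  have hb0 : 0 < b := by linarith
  have hbd' : d - b = c := by rw [hbd, hdd]; ring
  have hd1 : d < θ := by rw [hdd]; linarith
  have hd0 : 0 < d := by linarith
  have hd2 : 5 * d < 2 * e := by rw [hdd]; linarith
  obtain ⟨δ, hδ, hev⟩ := hm (Λ / 100) (by positivity) d hd1
  have t1 : Tendsto (fun n : ℕ => (n : ℝ) ^ (-d)) atTop (𝓝 0) :=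
    (tendsto_rpow_neg_atTop hd0).comp tendsto_natCast_atTop_atTop
  have tt : ∀ e : ℝ, 0 < e → Tendsto (fun n : ℕ => (n : ℝ) ^ e) atTop atTop := fun e he =>
    (tendsto_rpow_atTop he).comp tendsto_natCast_atTop_atTop
  filter_upwards [hev, eventually_ge_atTop 1, t1.eventually (gt_mem_nhds (show (0 : ℝ) <
      min (δ / 4) (1 / 4) by positivity)),
      (tt (1 - 5 * d - b) (by linarith)).eventually_gt_atTop (1 / Λ),
      (tt (2 * e - 5 * d) (by linarith)).eventually_ge_atTop (β ^ 2 / Λ),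
      (tt (b - a) (by linarith)).eventually_ge_atTop 2, (tt b hb0).eventually_ge_atTop 2,
      (tt (1 - 7 * d) (by linarith)).eventually_ge_atTop (1 / Λ)] with n h1 hn h3 h4 h6 h7 h8 h9
  have h31 : (n : ℝ) ^ (-d) < δ / 4 := h3.trans_le (min_le_left _ _)
  have h32 : (n : ℝ) ^ (-d) < 1 / 4 := h3.trans_le (min_le_right _ _)
  have h := bad_pow (c := n * p) (e := e) hn hβ0 hΛ (by linarith)
    (fun y hy1 hy2 => h1 y hy1 (by linarith)) h4 h6 h7 h8 h9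
  rwa [hbd'] at h

end Vale.Agent.P146.H827
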